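import Vale.Agent.P011.H40.Tv
import Vale.Agent.P011.H380.Model
import Vale.Agent.P011.H401.Triv

/-!
# helper704, P011: a nontrivial character is nontrivial at almost all primes (P11 of H40/Spec3)
-/

set_option autoImplicit false
set_option linter.unusedSectionVars false

open IsDedekindDomain Filter Topology Module

namespace Vale.Agent.P011.H40

open Vale.Agent.P011.H973 Vale.Agent.P011.H74 Vale.Agent.P011.H380.UpBC Vale.Agent.P011.H699

section P11

/-- `ϖ_i - ϖ_j` is not integral at `v_i`. -/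
theorem varpi_sub {P k : Type*} [CommRing P] [IsDedekindDomain P] [Field k] [Algebra P k]
    [IsFractionRing P k] {v w : HeightOneSpectrum P} (hvw : v ≠ w) {ϖ ϖ' : k}
    (h : ∃ a ∈ v.asIdeal, ∃ b ∉ v.asIdeal, algebraMap P k b = ϖ * algebraMap P k a)
    (h' : ∀ a ∈ w.asIdeal, ∃ b : P, algebraMap P k b = ϖ' * algebraMap P k a)
    {t r : P} (ht : t ∉ v.asIdeal) : algebraMap P k r ≠ algebraMap P k t * (ϖ - ϖ') := by
  intro hr
  obtain ⟨a, ha, b, hb, hab⟩ := h
  have hnle : ¬ w.asIdeal ≤ v.asIdeal := by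
    intro hle
    exact hvw (HeightOneSpectrum.ext (w.isMaximal.eq_of_le v.isPrime.ne_top hle)).symm
  obtain ⟨a', ha', hav⟩ := Set.not_subset.1 hnle
  obtain ⟨b', hb'⟩ := h' a' ha'
  -- `t a' b = a' r a + t b' a`
  have key : t * a' * b = (a' * r + t * b') * a := by
    apply IsFractionRing.injective P k
    rw [map_mul, map_mul, map_mul, map_add, map_mul, map_mul, hab, hb', hr]
    ring
  have hmem : t * a' * b ∈ v.asIdeal := by
    rw [key]
    exact v.asIdeal.mul_mem_left _ ha
  rcases v.isPrime.mem_or_mem hmem with h1 | h1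
  · rcases v.isPrime.mem_or_mem h1 with h2 | h2
    · exact ht h2
    · exact hav h2
  · exact hb h1

variable {P k R A E ι : Type*} [CommRing P] [IsDedekindDomain P] [Field k] [Algebra P k]
  [IsFractionRing P k] [CommRing R] [TopologicalSpace R] [IsTopologicalRing R]
  [Algebra k R] [Ring A] [StarRing A] [Algebra k A] [Algebra P A] [IsScalarTower P k A] [Ring E]
  [StarRing E] [TopologicalSpace E] [IsTopologicalRing E] [Algebra R E] [Fintype ι]
  [DecidableEq ι] (B : BCR k R A E ι) [Nontrivial R] [LocallyCompactSpace R] [T2Space R]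

theorem char_nontriv {O : Subring k} (hG : Good k R O)
    (hst : ∀ (r : P) (x : A), star (r • x) = r • star x) {O' : Subalgebra P A}
    (H : IsOrdR B.a O O'.toSubring) (hOL : ∀ c ∈ O, ∀ y ∈ O', c • y ∈ O') {q : A}
    (hq : ∀ x, q * x = x * q) (hq1 : q + star q = 1) (hqL : q ∈ O')
    {B₁ : Set (HeightOneSpectrum P)} (hint : ∀ z ∈ O, ∀ v : HeightOneSpectrum P, v ∉ B₁ →
      ∃ t ∉ v.asIdeal, ∃ r : P, algebraMap P k r = algebraMap P k t * z)
    {W : AddSubgroup E} (hW : (W : Set E) ∈ 𝓝 0) {χ : TM hst O' → ℂ}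
    (hχ : ∀ t t', χ (t + t') = χ t * χ t') (hχ1 : ∀ t, ‖χ t‖ = 1)
    (hχW : ∀ y : SymR hst, B.j y ∈ W → χ (Submodule.Quotient.mk y) = 1) (hne : ∃ t, χ t ≠ 1) :
    {v : HeightOneSpectrum P | v ∉ B₁ ∧ ∀ t ∈ Tv hst O' v.asIdeal, χ t = 1}.Finite := by
  classical
  by_contra hinf
  have hinf' : {v : HeightOneSpectrum P | v ∉ B₁ ∧ ∀ t ∈ Tv hst O' v.asIdeal, χ t = 1}.Infinite :=
    hinf
  let e := hinf'.natEmbedding
  have hne0 : ∀ t, χ t ≠ 0 := fun t h => by
    have := hχ1 t
    rw [h, norm_zero] at this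
    exact zero_ne_one this
  have hχ0 : χ 0 = 1 := by
    have h := hχ 0 0
    rw [add_zero] at h
    exact (mul_eq_left₀ (hne0 0)).1 h.symm
  have hχneg : ∀ t, χ t = 1 → χ (-t) = 1 := by
    intro t ht
    have h := hχ t (-t)
    rw [add_neg_cancel, hχ0, ht, one_mul] at h
    exact h.symm
  -- the subgroup on which the character is trivial
  let Z : AddSubgroup A :=
    { carrier := {y | ∃ h : star y = y, χ (Submodule.Quotient.mk (⟨y, h⟩ : SymR hst)) = 1}
      zero_mem' := ⟨star_zero A, by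
        have h : (Submodule.Quotient.mk (⟨0, star_zero A⟩ : SymR hst) : TM hst O') = 0 :=
          (mk_eq_zero hst).2 O'.zero_mem
        rw [h, hχ0]⟩
      add_mem' := by
        rintro a b ⟨ha, ha1⟩ ⟨hb, hb1⟩
        have hab : star (a + b) = a + b := by rw [star_add, ha, hb]
        refine ⟨hab, ?_⟩
        have h : (Submodule.Quotient.mk (⟨a + b, hab⟩ : SymR hst) :
            TM hst O') = Submodule.Quotient.mk (⟨a, ha⟩ : SymR hst) +
              Submodule.Quotient.mk (⟨b, hb⟩ : SymR hst) := by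
          rw [← Submodule.Quotient.mk_add]
          rfl
        rw [h, hχ, ha1, hb1, one_mul]
      neg_mem' := by
        rintro a ⟨ha, ha1⟩
        have hna : star (-a) = -a := by rw [star_neg, ha]
        refine ⟨hna, ?_⟩
        have h : (Submodule.Quotient.mk (⟨-a, hna⟩ : SymR hst) :
            TM hst O') = -Submodule.Quotient.mk (⟨a, ha⟩ : SymR hst) := by
          rw [← Submodule.Quotient.mk_neg]
          rfl
        rw [h]
        exact hχneg _ ha1 }
  choose ϖ hϖ hϖ' using fun i : ℕ => exists_varpi (k := k) (e i).1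
  have hmain := H401.triv_of_infinite B hG.coc H hOL hq hq1 hqL Z hW
    (fun y hy hyW => ⟨hy, hχW ⟨y, hy⟩ hyW⟩)
    (fun y hy hys => ⟨hys, by
      have h : (Submodule.Quotient.mk (⟨y, hys⟩ : SymR hst) : TM hst O') = 0 :=
        (mk_eq_zero hst).2 hy
      rw [h, hχ0]⟩) ϖ
    (fun i j hij hmem => by
      have hvne : (e i).1 ≠ (e j).1 := fun h => hij (e.injective (Subtype.ext h))
      obtain ⟨t, ht, r, hr⟩ := hint _ hmem (e i).1 (e i).2.1
      exact varpi_sub hvne (hϖ' i) (hϖ j) ht hr)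
    (fun i y hy hys => by
      have hs : star (ϖ i • y) = ϖ i • y := by rw [H401.star_smul' B, hys]
      refine ⟨hs, (e i).2.2 _ ?_⟩
      intro a ha
      rw [← Submodule.Quotient.mk_smul, mk_eq_zero]
      obtain ⟨b, hb⟩ := hϖ i a ha
      have h1 : ((a • (⟨ϖ i • y, hs⟩ : SymR hst) : SymR hst) : A) = b • y := by
        show a • (ϖ i • y) = b • y
        rw [← algebraMap_smul k a (ϖ i • y), smul_smul, mul_comm, ← hb, algebraMap_smul]
      rw [h1]
      exact O'.smul_mem hy b)
  obtain ⟨t, ht⟩ := hne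
  obtain ⟨y, rfl⟩ := Submodule.Quotient.mk_surjective _ t
  obtain ⟨h, h1⟩ := hmain y y.2
  exact ht h1

end P11

end Vale.Agent.P011.H40
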