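import Mathlib

/-!
P4 of H40/Spec: the character sum of a multiplicative summable weight on a torsion module over a
Dedekind domain splits off the primary components of finitely many primes.
-/

open IsDedekindDomain

namespace Vale.Agent.P011.H704

section split

variable {R T : Type*} [CommRing R] [IsDedekindDomain R] [AddCommGroup T] [Module R T]

/-- The part of `T` killed by a power of `v`. -/
def prim (v : HeightOneSpectrum R) : Submodule R T where
  carrier := {t | ∃ k : ℕ, ∀ a ∈ v.asIdeal ^ k, a • t = 0}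
  zero_mem' := ⟨0, fun a _ => smul_zero a⟩
  add_mem' := by
    rintro s t ⟨k, hk⟩ ⟨l, hl⟩
    refine ⟨max k l, fun a ha => ?_⟩
    rw [smul_add, hk a (Ideal.pow_le_pow_right (le_max_left _ _) ha),
      hl a (Ideal.pow_le_pow_right (le_max_right _ _) ha), add_zero]
  smul_mem' := by
    rintro c t ⟨k, hk⟩
    refine ⟨k, fun a ha => ?_⟩
    rw [smul_comm, hk a ha, smul_zero]

/-- The part of `T` killed by an element prime to `v`. -/
def away (v : HeightOneSpectrum R) : Submodule R T where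
  carrier := {t | ∃ a : R, a ∉ v.asIdeal ∧ a • t = 0}
  zero_mem' := ⟨1, fun h => v.isPrime.ne_top ((Ideal.eq_top_iff_one _).2 h), smul_zero _⟩
  add_mem' := by
    rintro s t ⟨a, ha, hs⟩ ⟨b, hb, ht⟩
    refine ⟨a * b, fun h => (v.isPrime.mem_or_mem h).elim ha hb, ?_⟩
    rw [smul_add, mul_smul, smul_comm a b s, hs, mul_smul, ht, smul_zero, smul_zero, add_zero]
  smul_mem' := by
    rintro c t ⟨a, ha, ht⟩
    exact ⟨a, ha, by rw [smul_comm, ht, smul_zero]⟩

theorem cop (v : HeightOneSpectrum R) (k : ℕ) {J : Ideal R} (hJ : ¬ J ≤ v.asIdeal) :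
    ∃ i ∈ v.asIdeal ^ k, ∃ j ∈ J, i + j = 1 := by
  have h : IsCoprime v.asIdeal J :=
    Ideal.isCoprime_iff_sup_eq.2 (v.isMaximal.out.2 _ (left_lt_sup.2 hJ))
  exact Ideal.isCoprime_iff_exists.1 (h.pow_left (m := k))

theorem cop_el (v : HeightOneSpectrum R) (k : ℕ) {w : R} (hw : w ∉ v.asIdeal) :
    ∃ i ∈ v.asIdeal ^ k, IsCoprime i w := by
  have hJ : ¬ Ideal.span {w} ≤ v.asIdeal := fun h => hw (h (Ideal.mem_span_singleton_self w))
  obtain ⟨i, hi, j, hj, hij⟩ := cop v k hJ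
  obtain ⟨r, rfl⟩ := Ideal.mem_span_singleton'.1 hj
  exact ⟨i, hi, 1, r, by rw [one_mul, hij]⟩

theorem exists_split (htor : ∀ t : T, ∃ a : R, a ≠ 0 ∧ a • t = 0) (v : HeightOneSpectrum R)
    (t : T) : ∃ s ∈ (prim v : Submodule R T), ∃ r ∈ (away v : Submodule R T), s + r = t := by
  obtain ⟨a, ha, hat⟩ := htor t
  have hI : Ideal.span {a} ≠ 0 := by
    rw [Ideal.zero_eq_bot, Ne, Ideal.span_singleton_eq_bot]; exact ha
  have hu : ¬ IsUnit v.asIdeal := fun h => v.isPrime.ne_top (Ideal.isUnit_iff.1 h)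
  obtain ⟨k, J, hJ, hk⟩ := WfDvdMonoid.max_power_factor' hI hu
  rw [Ideal.dvd_iff_le] at hJ
  have hkill : ∀ x ∈ v.asIdeal ^ k, ∀ y ∈ J, (x * y) • t = 0 := by
    intro x hx y hy
    have h1 : x * y ∈ Ideal.span {a} := by rw [hk]; exact Ideal.mul_mem_mul hx hy
    obtain ⟨c, hc⟩ := Ideal.mem_span_singleton'.1 h1
    rw [← hc, mul_smul, hat, smul_zero]
  obtain ⟨i, hi, j, hj, hij⟩ := cop v k hJ
  obtain ⟨w, hwJ, hwv⟩ := Set.not_subset.1 hJ
  refine ⟨j • t, ⟨k, fun x hx => ?_⟩, i • t, ⟨w, hwv, ?_⟩, ?_⟩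
  · rw [← mul_smul]; exact hkill x hx j hj
  · rw [← mul_smul, mul_comm]; exact hkill i hi w hwJ
  · rw [← add_smul, add_comm j i, hij, one_smul]

theorem disj (v : HeightOneSpectrum R) {t : T} (h1 : t ∈ (prim v : Submodule R T))
    (h2 : t ∈ (away v : Submodule R T)) : t = 0 := by
  obtain ⟨k, hk⟩ := h1
  obtain ⟨w, hw, hwt⟩ := h2
  obtain ⟨i, hi, x, y, hxy⟩ := cop_el v k hw
  rw [← one_smul R t, ← hxy, add_smul, mul_smul, mul_smul, hk i hi, hwt, smul_zero, smul_zero,
    add_zero]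

/-- `T` is the direct sum of its `v`-primary part and its prime-to-`v` part. -/
noncomputable def splitEquiv (htor : ∀ t : T, ∃ a : R, a ≠ 0 ∧ a • t = 0)
    (v : HeightOneSpectrum R) :
    Prod ↥(prim v : Submodule R T) ↥(away v : Submodule R T) ≃ T :=
  Equiv.ofBijective (fun z => (z.1 : T) + z.2) (by
    constructor
    · rintro ⟨⟨s, hs⟩, ⟨r, hr⟩⟩ ⟨⟨s', hs'⟩, ⟨r', hr'⟩⟩ h
      have hsum : s + r = s' + r' := h
      have h' : s - s' = r' - r := by
        rw [sub_eq_sub_iff_add_eq_add, hsum, add_comm]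
      have h0 : s - s' = 0 := disj v (sub_mem hs hs') (h' ▸ sub_mem hr' hr)
      have h1 : s = s' := sub_eq_zero.1 h0
      have h2 : r = r' := by
        rw [h1] at hsum
        exact add_left_cancel hsum
      subst h1 h2
      rfl
    · intro t
      obtain ⟨s, hs, r, hr, h⟩ := exists_split htor v t
      exact ⟨⟨⟨s, hs⟩, ⟨r, hr⟩⟩, h⟩)

theorem tsum_split (htor : ∀ t : T, ∃ a : R, a ≠ 0 ∧ a • t = 0) (v : HeightOneSpectrum R)
    {S : Type*} [NormedRing S] [CompleteSpace S] (g : T → S) (hg : Summable fun t => ‖g t‖)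
    (hm : ∀ s ∈ (prim v : Submodule R T), ∀ r ∈ (away v : Submodule R T),
      g (s + r) = g s * g r) :
    ∑' t, g t = (∑' s : ↥(prim v : Submodule R T), g s) *
      ∑' r : ↥(away v : Submodule R T), g r := by
  rw [← (splitEquiv htor v).tsum_eq]
  have h1 : ∀ z : Prod ↥(prim v : Submodule R T) ↥(away v : Submodule R T),
      g (splitEquiv htor v z) = g z.1 * g z.2 := fun z => hm _ z.1.2 _ z.2.2
  simp_rw [h1]
  exact (tsum_mul_tsum_of_summable_norm (f := fun s : ↥(prim v : Submodule R T) => g s)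
    (g := fun r : ↥(away v : Submodule R T) => g r)
    (hg.comp_injective Subtype.val_injective) (hg.comp_injective Subtype.val_injective)).symm

theorem mul_of_split {f : T → ℝ} (hmul : ∀ (t t' : T) (a b : R), a • t = 0 → b • t' = 0 →
    IsCoprime a b → f (t + t') = f t * f t') (v : HeightOneSpectrum R) {s r : T}
    (hs : s ∈ (prim v : Submodule R T)) (hr : r ∈ (away v : Submodule R T)) :
    f (s + r) = f s * f r := by
  obtain ⟨k, hk⟩ := hs
  obtain ⟨w, hw, hwr⟩ := hr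
  obtain ⟨i, hi, hiw⟩ := cop_el v k hw
  exact hmul s r i w (hk i hi) hwr hiw

omit [IsDedekindDomain R] in
/-- A subgroup of the primary part: the sum over the primary part. -/
theorem prim_bound (v : HeightOneSpectrum R) (f : T → ℝ) (hf0 : ∀ t, 0 ≤ f t)
    (hfs : Summable f) (χ : T → ℂ) (hχ1 : ∀ t, ‖χ t‖ = 1) (X : AddSubgroup T)
    (hX : ∀ t ∈ X, ∀ a ∈ v.asIdeal, a • t = 0) {Y : ℝ}
    (hloc : ‖∑' t : X, (f t : ℂ) * χ t‖ ≤ Y) :
    (∑' t : X, f t ≤ ∑' s : ↥(prim v : Submodule R T), f s) ∧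
    ‖∑' s : ↥(prim v : Submodule R T), (f s : ℂ) * χ s‖ ≤
      (∑' s : ↥(prim v : Submodule R T), f s) - (∑' t : X, f t) + Y := by
  set M : Submodule R T := prim v with hM
  have hXM : ∀ t ∈ X, t ∈ M := fun t ht => ⟨1, fun a ha => hX t ht a (by simpa using ha)⟩
  have hn : ∀ t : T, ‖(f t : ℂ) * χ t‖ = f t := fun t => by
    rw [norm_mul, hχ1, mul_one, Complex.norm_real, Real.norm_of_nonneg (hf0 _)]
  have hfM : Summable fun s : M => f s := hfs.comp_injective Subtype.val_injective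
  have hsn : Summable fun s : M => ‖(f s : ℂ) * χ s‖ := by simpa only [hn] using hfM
  have hsc : Summable fun s : M => (f s : ℂ) * χ s := hsn.of_norm
  let E : Set M := {s | (s : T) ∈ X}
  let e : X ≃ E :=
    { toFun := fun t => ⟨⟨t, hXM t t.2⟩, t.2⟩
      invFun := fun s => ⟨s.1, s.2⟩
      left_inv := fun t => rfl
      right_inv := fun s => rfl }
  have e1 : ∑' t : X, f t = ∑' s : E, f (s : M) := (e.tsum_eq (fun s : E => f (s : M)))
  have e2 : ∑' t : X, (f t : ℂ) * χ t = ∑' s : E, (f (s : M) : ℂ) * χ (s : M) :=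
    (e.tsum_eq (fun s : E => (f (s : M) : ℂ) * χ (s : M)))
  have s1 := hfM.tsum_subtype_add_tsum_subtype_compl E
  have s2 := hsc.tsum_subtype_add_tsum_subtype_compl E
  have hnn : 0 ≤ ∑' s : ↥Eᶜ, f (s : M) := tsum_nonneg fun s => hf0 _
  have hc : ‖∑' s : ↥Eᶜ, (f (s : M) : ℂ) * χ (s : M)‖ ≤ ∑' s : ↥Eᶜ, f (s : M) := by
    refine (norm_tsum_le_tsum_norm (hsn.comp_injective Subtype.val_injective)).trans (le_of_eq ?_)
    exact tsum_congr fun s => hn _
  rw [e2] at hloc
  rw [e1]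
  refine ⟨by linarith, ?_⟩
  rw [← s2]
  calc _ ≤ _ := norm_add_le _ _
    _ ≤ Y + ∑' s : ↥Eᶜ, f (s : M) := add_le_add hloc hc
    _ = _ := by linarith

end split

theorem fourier_bound {R T : Type*} [CommRing R] [IsDedekindDomain R] [AddCommGroup T] [Module R T]
    (htor : ∀ t : T, ∃ a : R, a ≠ 0 ∧ a • t = 0) (f : T → ℝ) (hf0 : ∀ t, 0 ≤ f t) (hf1 : f 0 = 1)
    (hfs : Summable f)
    (hmul : ∀ (t t' : T) (a b : R), a • t = 0 → b • t' = 0 → IsCoprime a b →
      f (t + t') = f t * f t')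
    (χ : T → ℂ) (hχ : ∀ t t', χ (t + t') = χ t * χ t') (hχ1 : ∀ t, ‖χ t‖ = 1)
    (P : Finset (HeightOneSpectrum R)) (X : HeightOneSpectrum R → AddSubgroup T)
    (hX : ∀ v ∈ P, ∀ t ∈ X v, ∀ a ∈ v.asIdeal, a • t = 0) {c₁ : ℝ} (hc0 : 0 ≤ c₁) (hc1 : c₁ ≤ 1)
    (hloc : ∀ v ∈ P, ‖∑' t : X v, (f t : ℂ) * χ t‖ ≤
      (∑' t : X v, f t) - c₁ * ((∑' t : X v, f t) - 1)) :
    ∃ b : HeightOneSpectrum R → ℝ, (∀ v ∈ P, ∑' t : X v, f t ≤ b v) ∧
      ∏ v ∈ P, b v ≤ ∑' t, f t ∧
      ‖∑' t, (f t : ℂ) * χ t‖ ≤ (∑' t, f t) *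
        ∏ v ∈ P, (1 - c₁ * ((∑' t : X v, f t) - 1) / b v) := by
  classical
  induction P using Finset.induction_on generalizing T with
  | empty =>
    have hn : ∀ t : T, ‖(f t : ℂ) * χ t‖ = f t := fun t => by
      rw [norm_mul, hχ1, mul_one, Complex.norm_real, Real.norm_of_nonneg (hf0 _)]
    refine ⟨fun _ => 0, by simp, ?_, ?_⟩
    · rw [Finset.prod_empty, ← hf1]
      exact hfs.le_tsum 0 fun t _ => hf0 t
    · rw [Finset.prod_empty, mul_one]
      refine (norm_tsum_le_tsum_norm (by simpa only [hn] using hfs)).trans (le_of_eq ?_)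
      exact tsum_congr fun s => hn _
  | insert v P hv IH =>
    have hn : ∀ t : T, ‖(f t : ℂ) * χ t‖ = f t := fun t => by
      rw [norm_mul, hχ1, mul_one, Complex.norm_real, Real.norm_of_nonneg (hf0 _)]
    set V : Submodule R T := away v with hV
    have hXV : ∀ u ∈ P, ∀ t ∈ X u, t ∈ V := by
      intro u hu t ht
      have hne : ¬ u.asIdeal ≤ v.asIdeal := by
        intro hle
        have := u.isMaximal.eq_of_le v.isPrime.ne_top hle
        exact hv ((HeightOneSpectrum.ext this) ▸ hu)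
      obtain ⟨a, ha, hav⟩ := Set.not_subset.1 hne
      exact ⟨a, hav, hX u (Finset.mem_insert_of_mem hu) t ht a ha⟩
    let X' : HeightOneSpectrum R → AddSubgroup V := fun u => (X u).comap V.toAddSubgroup.subtype
    let e : ∀ u ∈ P, X' u ≃ X u := fun u hu =>
      { toFun := fun z => ⟨z.1, z.2⟩
        invFun := fun w => ⟨⟨w, hXV u hu w w.2⟩, w.2⟩
        left_inv := fun z => rfl
        right_inv := fun w => rfl }
    have e1 : ∀ u ∈ P, ∑' t : X' u, f ((t : V) : T) = ∑' t : X u, f t := fun u hu =>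
      (e u hu).tsum_eq (fun t : X u => f t)
    have e2 : ∀ u ∈ P, ∑' t : X' u, (f ((t : V) : T) : ℂ) * χ ((t : V) : T) =
        ∑' t : X u, (f t : ℂ) * χ t := fun u hu =>
      (e u hu).tsum_eq (fun t : X u => (f t : ℂ) * χ t)
    obtain ⟨b', hb1, hb2, hb3⟩ := IH (T := V)
      (fun t => by
        obtain ⟨a, ha, hat⟩ := htor t
        exact ⟨a, ha, Subtype.ext hat⟩)
      (fun t => f t) (fun t => hf0 t) hf1 (hfs.comp_injective Subtype.val_injective)
      (fun t t' a c h h' hac => hmul t t' a c (congrArg Subtype.val h) (congrArg Subtype.val h') hac)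
      (fun t => χ t) (fun t t' => hχ t t') (fun t => hχ1 t) X'
      (fun u hu t ht a ha => Subtype.ext (hX u (Finset.mem_insert_of_mem hu) t ht a ha))
      (fun u hu => by
        rw [e1 u hu, e2 u hu]
        exact hloc u (Finset.mem_insert_of_mem hu))
    obtain ⟨hp1, hp2⟩ := prim_bound v f hf0 hfs χ hχ1 (X v) (hX v (Finset.mem_insert_self v P))
      (hloc v (Finset.mem_insert_self v P))
    set bv : ℝ := ∑' s : ↥(prim v : Submodule R T), f s with hbv
    have hbv1 : 1 ≤ bv := by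
      rw [← hf1]
      exact (hfs.comp_injective Subtype.val_injective).le_tsum
        (0 : ↥(prim v : Submodule R T)) fun t _ => hf0 t
    have S1 : ∑' t, f t = bv * ∑' r : V, f r :=
      tsum_split htor v f (by simpa only [Real.norm_of_nonneg (hf0 _)] using hfs)
        fun s hs r hr => mul_of_split hmul v hs hr
    have S2 : ∑' t, (f t : ℂ) * χ t =
        (∑' s : ↥(prim v : Submodule R T), (f s : ℂ) * χ s) * ∑' r : V, (f r : ℂ) * χ r :=
      tsum_split htor v (fun t => (f t : ℂ) * χ t) (by simpa only [hn] using hfs)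
        fun s hs r hr => by
          rw [mul_of_split hmul v hs hr, hχ, Complex.ofReal_mul]
          ring
    have hne : ∀ u ∈ P, u ≠ v := fun u hu h => hv (h ▸ hu)
    refine ⟨fun u => if u = v then bv else b' u, ?_, ?_, ?_⟩
    · intro u hu
      rcases Finset.mem_insert.1 hu with rfl | hu
      · simpa using hp1
      · simp only [if_neg (hne u hu)]
        exact (e1 u hu) ▸ hb1 u hu
    · rw [Finset.prod_insert hv, S1, if_pos rfl]
      refine mul_le_mul_of_nonneg_left ?_ (by linarith)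
      refine le_trans (le_of_eq ?_) hb2
      exact Finset.prod_congr rfl fun u hu => if_neg (hne u hu)
    · rw [Finset.prod_insert hv, S1, S2, norm_mul]
      simp only [if_true]
      have h1 : ∏ u ∈ P, (1 - c₁ * ((∑' t : X u, f t) - 1) / (if u = v then bv else b' u)) =
          ∏ u ∈ P, (1 - c₁ * ((∑' t : X' u, f ((t : V) : T)) - 1) / b' u) :=
        Finset.prod_congr rfl fun u hu => by rw [if_neg (hne u hu), e1 u hu]
      rw [h1]
      have h2 : ‖∑' s : ↥(prim v : Submodule R T), (f s : ℂ) * χ s‖ ≤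
          bv * (1 - c₁ * ((∑' t : X v, f t) - 1) / bv) := by
        refine hp2.trans (le_of_eq ?_)
        field_simp
        ring
      calc _ ≤ (bv * (1 - c₁ * ((∑' t : X v, f t) - 1) / bv)) *
            ((∑' r : V, f r) * ∏ u ∈ P, (1 - c₁ * ((∑' t : X' u, f ((t : V) : T)) - 1) / b' u)) :=
            mul_le_mul h2 hb3 (norm_nonneg _) (le_trans (norm_nonneg _) h2)
        _ = _ := by ring

end Vale.Agent.P011.H704
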