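import Mathlib

/-!
helper704, P011: the numerical product bound in P7 of H40/Spec.

Each factor `1 - c₂ (a v - 1) / b v` is at most
`exp (c₂ * logb 2 (b v / (1 + η v)) - (c₂ / 4) * log (1 + η v))`, and the exponents add up.
-/

namespace Vale.Agent.P011.H704

open Real

theorem num_factor {a b η c₂ : ℝ} (hη0 : 0 ≤ η) (hη1 : η ≤ 1) (ha : 1 + η ≤ a) (hab : a ≤ b)
    (hc0 : 0 ≤ c₂) (hc1 : c₂ ≤ 1) :
    0 ≤ 1 - c₂ * (a - 1) / b ∧
    1 - c₂ * (a - 1) / b ≤
      Real.exp (c₂ * Real.logb 2 (b / (1 + η)) - c₂ / 4 * Real.log (1 + η)) := by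
  have h1 : (0 : ℝ) < 1 + η := by linarith
  have hb : 0 < b := by linarith
  have hr : 1 ≤ b / (1 + η) := by rw [le_div_iff₀ h1]; linarith
  constructor
  · have : c₂ * (a - 1) / b ≤ 1 := by
      rw [div_le_one hb]
      have : c₂ * (a - 1) ≤ 1 * (a - 1) := mul_le_mul_of_nonneg_right hc1 (by linarith)
      linarith
    linarith
  · have hexp : 1 - c₂ * (a - 1) / b ≤ Real.exp (-(c₂ * (a - 1) / b)) := by
      have := Real.add_one_le_exp (-(c₂ * (a - 1) / b))
      linarith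
    refine hexp.trans (Real.exp_le_exp.mpr ?_)
    have hlog : Real.log (1 + η) ≤ η := by
      have := Real.log_le_sub_one_of_pos h1
      linarith
    have key : Real.log (1 + η) / 4 ≤ (a - 1) / b + Real.logb 2 (b / (1 + η)) := by
      have hl0 : 0 ≤ Real.logb 2 (b / (1 + η)) := Real.logb_nonneg (by norm_num) hr
      have hab0 : 0 ≤ (a - 1) / b := div_nonneg (by linarith) hb.le
      by_cases h2 : b / (1 + η) ≤ 2
      · have hb2 : b ≤ 2 * (1 + η) := by rwa [div_le_iff₀ h1] at h2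
        have hb4 : b ≤ 4 := by linarith
        have : η / 4 ≤ (a - 1) / b := by
          rw [div_le_div_iff₀ (by norm_num) hb]
          have : η * b ≤ η * 4 := mul_le_mul_of_nonneg_left hb4 hη0
          linarith
        linarith
      · push Not at h2
        have : 1 ≤ Real.logb 2 (b / (1 + η)) := by
          rw [Real.le_logb_iff_rpow_le (by norm_num) (by linarith)]
          simpa using h2.le
        linarith
    have := mul_le_mul_of_nonneg_left key hc0
    have e1 : c₂ * ((a - 1) / b + Real.logb 2 (b / (1 + η))) =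
      c₂ * (a - 1) / b + c₂ * Real.logb 2 (b / (1 + η)) := by ring
    rw [e1] at this
    linarith

theorem num_bound {ι : Type*} (V : Finset ι) (a b η : ι → ℝ) (hη0 : ∀ v ∈ V, 0 ≤ η v)
    (hη1 : ∀ v ∈ V, η v ≤ 1) (ha : ∀ v ∈ V, 1 + η v ≤ a v) (hab : ∀ v ∈ V, a v ≤ b v)
    {c₂ : ℝ} (hc0 : 0 ≤ c₂) (hc1 : c₂ ≤ 1) {K L : ℝ} (_hK1 : 1 ≤ K)
    (hK : ∏ v ∈ V, b v ≤ K * ∏ v ∈ V, (1 + η v)) (hL0 : 0 < L)
    (hL : L ≤ ∏ v ∈ V, (1 + η v)) :
    ∏ v ∈ V, (1 - c₂ * (a v - 1) / b v) ≤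
      Real.exp (c₂ * Real.logb 2 K) * L ^ (-(c₂ / 4)) := by
  have h1 : ∀ v ∈ V, (0 : ℝ) < 1 + η v := fun v hv => by have := hη0 v hv; linarith
  have hb : ∀ v ∈ V, 0 < b v := fun v hv => by
    have := h1 v hv; have := ha v hv; have := hab v hv; linarith
  have hP : 0 < ∏ v ∈ V, (1 + η v) := Finset.prod_pos h1
  have hB : 0 < ∏ v ∈ V, b v := Finset.prod_pos hb
  calc ∏ v ∈ V, (1 - c₂ * (a v - 1) / b v)
      ≤ ∏ v ∈ V, Real.exp (c₂ * Real.logb 2 (b v / (1 + η v)) -
          c₂ / 4 * Real.log (1 + η v)) :=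
        Finset.prod_le_prod
          (fun v hv => (num_factor (hη0 v hv) (hη1 v hv) (ha v hv) (hab v hv) hc0 hc1).1)
          (fun v hv => (num_factor (hη0 v hv) (hη1 v hv) (ha v hv) (hab v hv) hc0 hc1).2)
    _ = Real.exp (∑ v ∈ V, (c₂ * Real.logb 2 (b v / (1 + η v)) -
          c₂ / 4 * Real.log (1 + η v))) := (Real.exp_sum _ _).symm
    _ = Real.exp (c₂ * Real.logb 2 (∏ v ∈ V, (b v / (1 + η v))) -
          c₂ / 4 * Real.log (∏ v ∈ V, (1 + η v))) := by
        congr 1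
        rw [Finset.sum_sub_distrib, ← Finset.mul_sum, ← Finset.mul_sum,
          Real.logb_prod _ _ (fun v hv => (div_pos (hb v hv) (h1 v hv)).ne'),
          Real.log_prod (fun v hv => (h1 v hv).ne')]
    _ ≤ Real.exp (c₂ * Real.logb 2 K + Real.log L * (-(c₂ / 4))) := by
        apply Real.exp_le_exp.mpr
        have e1 : Real.logb 2 (∏ v ∈ V, (b v / (1 + η v))) ≤ Real.logb 2 K := by
          apply Real.logb_le_logb_of_le (by norm_num)
          · exact Finset.prod_pos fun v hv => div_pos (hb v hv) (h1 v hv)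
          · rw [Finset.prod_div_distrib, div_le_iff₀ hP]
            exact hK
        have e2 : Real.log L ≤ Real.log (∏ v ∈ V, (1 + η v)) := Real.log_le_log hL0 hL
        have e3 := mul_le_mul_of_nonneg_left e1 hc0
        have e4 := mul_le_mul_of_nonneg_left e2 (by positivity : 0 ≤ c₂ / 4)
        linarith
    _ = Real.exp (c₂ * Real.logb 2 K) * L ^ (-(c₂ / 4)) := by
        rw [Real.exp_add, Real.rpow_def_of_pos hL0]

end Vale.Agent.P011.H704
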