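import Vale.Agent.P011.H40.Tv
import Vale.Agent.P011.H973.ZetaLow
import Vale.Agent.P011.H704.Fourier
import Vale.Agent.P011.H704.Num

/-!
# helper704, P011: decay of the character sums (P12 of H40/Spec3)
-/

set_option autoImplicit false
set_option linter.unusedSectionVars false

open IsDedekindDomain Filter Topology

namespace Vale.Agent.P011.H40

open Vale.Agent.P011.H973 Vale.Agent.P011.H699

section P12
variable {P A : Type*} [CommRing P] [IsDedekindDomain P] [Ring A] [StarRing A] [Algebra P A]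

theorem fourier_zero (hE : HasEuler P) (hst : ∀ (r : P) (x : A), star (r • x) = r • star x)
    {O' : Subalgebra P A} (hfrac : ∀ x : A, ∃ a : P, a ≠ 0 ∧ a • x ∈ O') {n : ℕ} (hn : n ≠ 0)
    {C : ℝ} (hmass : ∀ x : ℝ, 1 < x → x ≤ 2 →
      Summable (wtT hst O' x) ∧ ∑' t, wtT hst O' x t ≤ C / (x - 1))
    {Bd : Set (HeightOneSpectrum P)} (hBd : Bd.Finite)
    (hloc : ∀ v ∉ Bd, Finite (P ⧸ v.asIdeal) →
      (∀ x : ℝ, 1 + (1 - 1 / (Nat.card (P ⧸ v.asIdeal) : ℝ)) *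
        (Nat.card (P ⧸ v.asIdeal) : ℝ) ^ (-(1 + 2 * n * (x - 1))) ≤
          ∑' t : Tv hst O' v.asIdeal, wtT hst O' x t) ∧
      ∀ (x : ℝ) (χ : TM hst O' → ℂ), (∀ t t', χ (t + t') = χ t * χ t') → (∀ t, ‖χ t‖ = 1) →
        (∃ t ∈ Tv hst O' v.asIdeal, χ t ≠ 1) →
        ‖∑' t : Tv hst O' v.asIdeal, (wtT hst O' x t : ℂ) * χ t‖ ≤
          (∑' t : Tv hst O' v.asIdeal, wtT hst O' x t) -
            1 / (4 * (n : ℝ) ^ 2) * ((∑' t : Tv hst O' v.asIdeal, wtT hst O' x t) - 1))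
    {χ : TM hst O' → ℂ} (hχ : ∀ t t', χ (t + t') = χ t * χ t') (hχ1 : ∀ t, ‖χ t‖ = 1)
    (hfin : {v : HeightOneSpectrum P | v ∉ Bd ∧ ∀ t ∈ Tv hst O' v.asIdeal, χ t = 1}.Finite) :
    Tendsto (fun x : ℝ => (x - 1) * ‖∑' t, (wtT hst O' x t : ℂ) * χ t‖) (𝓝[>] 1) (𝓝 0) := by
  classical
  set S : Set (HeightOneSpectrum P) :=
    {v : HeightOneSpectrum P | v ∉ Bd ∧ ∀ t ∈ Tv hst O' v.asIdeal, χ t = 1} with hS
  obtain ⟨c, hc, hev⟩ := hE (Bd ∪ S) (hBd.union hfin)
  have hn1 : (1 : ℝ) ≤ n := by exact_mod_cast Nat.one_le_iff_ne_zero.2 hn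
  have h2n : (0 : ℝ) < 2 * n := by linarith
  set c₁ : ℝ := 1 / (4 * (n : ℝ) ^ 2) with hc₁
  have hc₁0 : 0 < c₁ := by positivity
  have hc₁1 : c₁ ≤ 1 := by
    rw [hc₁, div_le_one (by positivity)]
    nlinarith
  have hC0 : 0 ≤ C := by
    have h := (hmass 2 (by norm_num) le_rfl).2
    have h1 : 0 ≤ ∑' t, wtT hst O' 2 t := tsum_nonneg (wtT_nonneg hst 2)
    have h2 : (0 : ℝ) ≤ C / (2 - 1) := h1.trans h
    norm_num at h2
    exact h2
  set K : ℝ := max 1 (2 * n * C / c) with hK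
  have hK1 : 1 ≤ K := le_max_left _ _
  set E : ℝ := Real.exp (c₁ * Real.logb 2 K) with hEdef
  -- the upper bound
  have hupper : ∀ᶠ x : ℝ in 𝓝[>] 1, (x - 1) * ‖∑' t, (wtT hst O' x t : ℂ) * χ t‖ ≤
      C * (E * (c / (2 * n) * (x - 1)⁻¹) ^ (-(c₁ / 4))) := by
    have htend : Tendsto (fun x : ℝ => 1 + 2 * n * (x - 1)) (𝓝[>] 1) (𝓝[>] 1) := by
      refine tendsto_nhdsWithin_iff.2 ⟨?_, ?_⟩
      · have h1 : Continuous fun x : ℝ => 1 + 2 * n * (x - 1) := by fun_prop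
        have h2 := h1.tendsto 1
        simp only [sub_self, mul_zero, add_zero] at h2
        exact h2.mono_left nhdsWithin_le_nhds
      · filter_upwards [self_mem_nhdsWithin] with x hx
        have hx' : (1 : ℝ) < x := hx
        show (1 : ℝ) < 1 + 2 * n * (x - 1)
        have : 0 < 2 * n * (x - 1) := mul_pos h2n (by linarith)
        linarith
    have hIoc : Set.Ioc (1 : ℝ) 2 ∈ 𝓝[>] (1 : ℝ) := Ioc_mem_nhdsGT (by norm_num)
    filter_upwards [htend.eventually hev, hIoc] with x hx hx1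
    obtain ⟨hx1, hx2⟩ := hx1
    obtain ⟨V, hV, hVs⟩ := hx
    have hx0 : 0 < x - 1 := by linarith
    obtain ⟨hs, hm⟩ := hmass x hx1 hx2
    have hVB : ∀ v ∈ V, v ∉ Bd := fun v hv h => (hV v hv).1 (Or.inl h)
    have hVS : ∀ v ∈ V, ∃ t ∈ Tv hst O' v.asIdeal, χ t ≠ 1 := by
      intro v hv
      by_contra hcon
      push Not at hcon
      exact (hV v hv).1 (Or.inr ⟨hVB v hv, hcon⟩)
    set η : HeightOneSpectrum P → ℝ := fun v => (1 - 1 / (Nat.card (P ⧸ v.asIdeal) : ℝ)) *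
        (Nat.card (P ⧸ v.asIdeal) : ℝ) ^ (-(1 + 2 * n * (x - 1))) with hη
    obtain ⟨b, hb1, hb2, hb3⟩ := H704.fourier_bound (R := P) (T := TM hst O')
      (tors_TM hst hfrac) (wtT hst O' x) (wtT_nonneg hst x) (wtT_zero hst x) hs
      (fun t t' a b ha hb hab => wtT_add hst x t t' a b ha hb hab) χ hχ hχ1 V
      (fun v => Tv hst O' v.asIdeal) (fun v _ t ht a ha => ht a ha) hc₁0.le hc₁1
      (fun v hv => (hloc v (hVB v hv) (hV v hv).2).2 x χ hχ hχ1 (hVS v hv))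
    have hcardR : ∀ v ∈ V, (1 : ℝ) ≤ Nat.card (P ⧸ v.asIdeal) := by
      intro v hv
      have : Finite (P ⧸ v.asIdeal) := (hV v hv).2
      have h2 : 1 ≤ Nat.card (P ⧸ v.asIdeal) := Nat.card_pos
      exact_mod_cast h2
    have hη0 : ∀ v ∈ V, 0 ≤ η v := by
      intro v hv
      have h3 := hcardR v hv
      have h4 : 1 / (Nat.card (P ⧸ v.asIdeal) : ℝ) ≤ 1 := by
        rw [div_le_one (by linarith)]
        exact h3
      have h5 : 0 ≤ 1 - 1 / (Nat.card (P ⧸ v.asIdeal) : ℝ) := by linarith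
      simp only [hη]
      positivity
    have hη1 : ∀ v ∈ V, η v ≤ 1 := by
      intro v hv
      have h3 := hcardR v hv
      have h4 : 0 ≤ 1 / (Nat.card (P ⧸ v.asIdeal) : ℝ) := by positivity
      have h5 : (Nat.card (P ⧸ v.asIdeal) : ℝ) ^ (-(1 + 2 * n * (x - 1))) ≤ 1 :=
        Real.rpow_le_one_of_one_le_of_nonpos h3 (by
          have : 0 < 2 * n * (x - 1) := mul_pos h2n hx0
          linarith)
      have h6 : 0 ≤ (Nat.card (P ⧸ v.asIdeal) : ℝ) ^ (-(1 + 2 * n * (x - 1))) := by positivity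
      simp only [hη]
      calc (1 - 1 / (Nat.card (P ⧸ v.asIdeal) : ℝ)) *
            (Nat.card (P ⧸ v.asIdeal) : ℝ) ^ (-(1 + 2 * n * (x - 1)))
          ≤ 1 * (Nat.card (P ⧸ v.asIdeal) : ℝ) ^ (-(1 + 2 * n * (x - 1))) :=
            mul_le_mul_of_nonneg_right (by linarith) h6
        _ ≤ 1 := by rw [one_mul]; exact h5
    set L : ℝ := c / (2 * n) * (x - 1)⁻¹ with hL
    have hL0 : 0 < L := by positivity
    have hLle : L ≤ ∏ v ∈ V, (1 + η v) := by
      refine le_trans (le_of_eq ?_) hVs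
      rw [hL]
      field_simp
      ring
    have hnum := H704.num_bound V (fun v => ∑' t : Tv hst O' v.asIdeal, wtT hst O' x t) b η
      hη0 hη1 (fun v hv => (hloc v (hVB v hv) (hV v hv).2).1 x) hb1 hc₁0.le hc₁1 hK1
      (by
        have h1 : ∏ v ∈ V, b v ≤ C / (x - 1) := hb2.trans hm
        have h2 : C / (x - 1) = (2 * n * C / c) * L := by
          rw [hL]
          field_simp
        have h3 : (2 * n * C / c) * L ≤ K * L :=
          mul_le_mul_of_nonneg_right (le_max_right _ _) hL0.le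
        have h4 : K * L ≤ K * ∏ v ∈ V, (1 + η v) :=
          mul_le_mul_of_nonneg_left hLle (by linarith)
        linarith)
      hL0 hLle
    have hprod0 : 0 ≤ E * L ^ (-(c₁ / 4)) := by positivity
    calc (x - 1) * ‖∑' t, (wtT hst O' x t : ℂ) * χ t‖
        ≤ (x - 1) * ((∑' t, wtT hst O' x t) *
            ∏ v ∈ V, (1 - c₁ * ((∑' t : Tv hst O' v.asIdeal, wtT hst O' x t) - 1) / b v)) :=
          mul_le_mul_of_nonneg_left hb3 hx0.le
      _ ≤ (x - 1) * ((∑' t, wtT hst O' x t) * (E * L ^ (-(c₁ / 4)))) :=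
          mul_le_mul_of_nonneg_left
            (mul_le_mul_of_nonneg_left hnum (tsum_nonneg (wtT_nonneg hst x))) hx0.le
      _ ≤ (x - 1) * (C / (x - 1) * (E * L ^ (-(c₁ / 4)))) :=
          mul_le_mul_of_nonneg_left (mul_le_mul_of_nonneg_right hm hprod0) hx0.le
      _ = C * (E * L ^ (-(c₁ / 4))) := by
          field_simp
  -- the limit of the upper bound
  have hlim : Tendsto (fun x : ℝ => C * (E * (c / (2 * n) * (x - 1)⁻¹) ^ (-(c₁ / 4))))
      (𝓝[>] 1) (𝓝 0) := by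
    have h1 : Tendsto (fun x : ℝ => (x - 1)⁻¹) (𝓝[>] 1) atTop := by
      refine tendsto_inv_nhdsGT_zero.comp ?_
      refine tendsto_nhdsWithin_iff.2 ⟨?_, ?_⟩
      · have h1 : Continuous fun x : ℝ => x - 1 := by fun_prop
        have h2 := h1.tendsto 1
        simp only [sub_self] at h2
        exact h2.mono_left nhdsWithin_le_nhds
      · filter_upwards [self_mem_nhdsWithin] with x hx
        have hx' : (1 : ℝ) < x := hx
        show (0 : ℝ) < x - 1
        linarith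
    have h2 : Tendsto (fun x : ℝ => c / (2 * n) * (x - 1)⁻¹) (𝓝[>] 1) atTop :=
      h1.const_mul_atTop (by positivity)
    have h3 : Tendsto (fun x : ℝ => (c / (2 * n) * (x - 1)⁻¹) ^ (-(c₁ / 4))) (𝓝[>] 1) (𝓝 0) :=
      (tendsto_rpow_neg_atTop (by positivity)).comp h2
    have h4 := (h3.const_mul E).const_mul C
    simpa using h4
  refine squeeze_zero' ?_ hupper hlim
  filter_upwards [self_mem_nhdsWithin] with x hx
  have hx' : (1 : ℝ) < x := hx
  have : 0 ≤ x - 1 := by linarith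
  positivity

end P12

end Vale.Agent.P011.H40
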