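import Mathlib

/-!
P5 of H40/Spec: the local bound for the character sum of an invariant weight over the symmetric
elements of a finite ring with involution.
-/

open Module

namespace Vale.Agent.P011.H704

section units

variable {A F : Type*} [Ring A] [Finite A] [Field F] [Algebra F A]

omit [Field F] [Algebra F A] in
theorem isUnit_of_inj {u : A} (h : ∀ a : A, u * a = 0 → a = 0) : IsUnit u := by
  have hinj : Function.Injective fun a : A => u * a := by
    intro a b hab
    have hab' : u * a = u * b := hab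
    have : u * (a - b) = 0 := by rw [mul_sub, hab', sub_self]
    exact sub_eq_zero.1 (h _ this)
  obtain ⟨b, hb⟩ := (Finite.injective_iff_surjective.1 hinj) 1
  exact IsUnit.of_mul_eq_one b hb

theorem exists_two (hF : finrank F A + 4 ≤ Nat.card F) [Finite F] (x : A) :
    ∃ t₁ t₂ : F, t₁ ≠ 0 ∧ t₂ ≠ 0 ∧ t₁ ≠ t₂ ∧ IsUnit (1 + t₁ • x) ∧ IsUnit (1 + t₂ • x) := by
  classical
  have := Fintype.ofFinite F
  let Bad : Finset F := Finset.univ.filter fun t => ¬ IsUnit (1 + t • x)
  have hbad : ∀ t : Bad, ∃ a : A, a ≠ 0 ∧ (1 + (t : F) • x) * a = 0 := by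
    intro t
    by_contra hcon
    push Not at hcon
    have ht := (Finset.mem_filter.1 t.2).2
    exact ht (isUnit_of_inj fun a ha => by
      by_contra h0
      exact hcon a h0 ha)
  choose a ha0 ha using hbad
  have ht0 : ∀ t : Bad, (t : F) ≠ 0 := by
    intro t h0
    have ht := (Finset.mem_filter.1 t.2).2
    rw [h0, zero_smul, add_zero] at ht
    exact ht isUnit_one
  have hev : ∀ t : Bad, Module.End.HasEigenvector (LinearMap.mulLeft F x) (-(t : F)⁻¹) (a t) := by
    intro t
    refine Module.End.hasEigenvector_iff.2 ⟨Module.End.mem_eigenspace_iff.2 ?_, ha0 t⟩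
    have h1 : a t + (t : F) • (x * a t) = 0 := by
      have := ha t
      rwa [add_mul, one_mul, smul_mul_assoc] at this
    rw [LinearMap.mulLeft_apply, neg_smul, eq_neg_iff_add_eq_zero]
    have h2 : (t : F)⁻¹ • (a t + (t : F) • (x * a t)) = 0 := by rw [h1, smul_zero]
    rwa [smul_add, smul_smul, inv_mul_cancel₀ (ht0 t), one_smul, add_comm] at h2
  have hinj : Function.Injective fun t : Bad => -(t : F)⁻¹ := by
    intro s t h
    exact Subtype.ext (inv_injective (neg_injective h))
  have hli : LinearIndependent F a :=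
    Module.End.eigenvectors_linearIndependent' (LinearMap.mulLeft F x) _ hinj a hev
  have hc : Bad.card ≤ finrank F A := by
    have := hli.fintype_card_le_finrank
    rwa [Fintype.card_coe] at this
  let Gd : Finset F := (Badᶜ).erase 0
  have hGd : 2 ≤ Gd.card := by
    have h1 : Badᶜ.card = Fintype.card F - Bad.card := Finset.card_compl _
    have h2 : Badᶜ.card - 1 ≤ Gd.card := Finset.pred_card_le_card_erase
    rw [Nat.card_eq_fintype_card] at hF
    omega
  obtain ⟨t₁, h₁, t₂, h₂, hne⟩ := Finset.one_lt_card.1 (show 1 < Gd.card by omega)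
  rw [Finset.mem_erase, Finset.mem_compl, Finset.mem_filter] at h₁ h₂
  refine ⟨t₁, t₂, h₁.1, h₂.1, hne, ?_, ?_⟩
  · by_contra h; exact h₁.2 ⟨Finset.mem_univ _, h⟩
  · by_contra h; exact h₂.2 ⟨Finset.mem_univ _, h⟩

end units

section span

variable {A F : Type*} [Ring A] [StarRing A] [Field F] [Algebra F A]

/-- The `F`-span of the orbit of `e`. -/
def orb (F : Type*) [Field F] [Algebra F A] (e : A) : Submodule F A :=
  Submodule.span F (Set.range fun g : Aˣ => (g : A) * e * star (g : A))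

theorem self_mem_orb (e : A) : e ∈ orb F e :=
  Submodule.subset_span ⟨1, by simp⟩

theorem orb_stable {e y : A} (hy : y ∈ orb F e)
    (u : Aˣ) : (u : A) * y * star (u : A) ∈ orb F e := by
  let φ : A →ₗ[F] A := (LinearMap.mulRight F (star (u : A))).comp (LinearMap.mulLeft F (u : A))
  have h : orb F e ≤ (orb F e).comap φ := by
    refine Submodule.span_le.2 ?_
    rintro _ ⟨g, rfl⟩
    refine Submodule.subset_span ⟨u * g, ?_⟩
    simp only [Units.val_mul, star_mul, φ, LinearMap.comp_apply, LinearMap.mulLeft_apply,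
      LinearMap.mulRight_apply]
    noncomm_ring
  exact h hy

theorem orb_quad [Finite A] [Finite F] (hF : finrank F A + 4 ≤ Nat.card F)
    (hs : ∀ c : F, ∀ x : A, star (c • x) = c • star x) {e y : A} (hy : y ∈ orb F e) (x : A) :
    x * y * star x ∈ orb F e := by
  obtain ⟨t₁, t₂, h1, h2, hne, ⟨u₁, hu₁⟩, ⟨u₂, hu₂⟩⟩ := exists_two hF x
  have key : ∀ (t : F) (u : Aˣ), (u : A) = 1 + t • x →
      t • (x * y + y * star x) + (t * t) • (x * y * star x) ∈ orb F e := by
    intro t u hu
    have h := sub_mem (orb_stable hy u) hy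
    have h' : (u : A) * y * star (u : A) - y =
        t • (x * y + y * star x) + (t * t) • (x * y * star x) := by
      rw [hu, star_add, star_one, hs, add_mul, one_mul, add_mul, mul_add, mul_one, mul_add,
        mul_one, smul_add, mul_smul_comm, smul_mul_assoc, smul_mul_assoc, mul_smul_comm,
        smul_smul]
      abel
    rwa [h'] at h
  have k1 := key t₁ u₁ hu₁
  have k2 := key t₂ u₂ hu₂
  have h3 : (t₁ * t₂ * (t₁ - t₂)) • (x * y * star x) ∈ orb F e := by
    have := sub_mem ((orb F e).smul_mem t₂ k1) ((orb F e).smul_mem t₁ k2)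
    have heq : t₂ • (t₁ • (x * y + y * star x) + (t₁ * t₁) • (x * y * star x)) -
        t₁ • (t₂ • (x * y + y * star x) + (t₂ * t₂) • (x * y * star x)) =
        (t₁ * t₂ * (t₁ - t₂)) • (x * y * star x) := by
      module
    rwa [heq] at this
  have hc : t₁ * t₂ * (t₁ - t₂) ≠ 0 := mul_ne_zero (mul_ne_zero h1 h2) (sub_ne_zero.2 hne)
  exact ((orb F e).smul_mem_iff hc).1 h3

theorem orb_top [Finite A] [Finite F] (hF : finrank F A + 4 ≤ Nat.card F)
    (hs : ∀ c : F, ∀ x : A, star (c • x) = c • star x) {τ : A} (hτc : ∀ x, τ * x = x * τ)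
    (hτ : τ + star τ = 1) {e : A} {r : ℕ} {x y : Fin r → A} (hxy : ∑ i, x i * e * y i = 1)
    (he : star e = e) {s : A} (hss : star s = s) : s ∈ orb F e := by
  have hpol : ∀ a b : A, a * e * star b + b * e * star a ∈ orb F e := by
    intro a b
    have h1 := orb_quad hF hs (self_mem_orb (F := F) e) (a + b)
    have h2 := orb_quad hF hs (self_mem_orb (F := F) e) a
    have h3 := orb_quad hF hs (self_mem_orb (F := F) e) b
    have := sub_mem (sub_mem h1 h2) h3
    have heq : (a + b) * e * star (a + b) - a * e * star a - b * e * star b =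
        a * e * star b + b * e * star a := by
      rw [star_add]; noncomm_ring
    rwa [heq] at this
  have hsum : ∑ i, (x i * e * star (star (y i * τ * s)) + star (y i * τ * s) * e * star (x i)) =
      s := by
    rw [Finset.sum_add_distrib]
    have e1 : ∑ i, x i * e * star (star (y i * τ * s)) = τ * s := by
      have : ∀ i, x i * e * star (star (y i * τ * s)) = (x i * e * y i) * (τ * s) := by
        intro i; rw [star_star]; noncomm_ring
      simp_rw [this]
      rw [← Finset.sum_mul, hxy, one_mul]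
    have e2 : ∑ i, star (y i * τ * s) * e * star (x i) = star (τ * s) := by
      rw [← e1, star_sum]
      refine Finset.sum_congr rfl fun i _ => ?_
      rw [star_mul (x i * e), star_star, star_mul (x i), he, mul_assoc]
    rw [e1, e2, star_mul, hss]
    have e3 : s * star τ = star τ * s := by
      have := congrArg star (hτc s)
      rwa [star_mul, star_mul, hss] at this
    rw [e3, ← add_mul, hτ, one_mul]
  rw [← hsum]
  exact Submodule.sum_mem _ fun i _ => hpol _ _

end span

section count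

variable {A F : Type*} [Ring A] [StarRing A] [Field F] [Algebra F A]

/-- The symmetric elements as an `F`-subspace. -/
def symF (hs : ∀ c : F, ∀ x : A, star (c • x) = c • star x) : Submodule F A where
  carrier := {x | star x = x}
  zero_mem' := star_zero A
  add_mem' := by
    intro x y (hx : star x = x) (hy : star y = y)
    show star (x + y) = x + y
    rw [star_add, hx, hy]
  smul_mem' := by
    intro c x (hx : star x = x)
    show star (c • x) = c • x
    rw [hs, hx]

/-- Many translates of `e` lie outside a proper subspace. -/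
theorem count_out [Finite A] [Finite F] (hF : finrank F A + 4 ≤ Nat.card F)
    (hs : ∀ c : F, ∀ x : A, star (c • x) = c • star x) {τ : A} (hτc : ∀ x, τ * x = x * τ)
    (hτ : τ + star τ = 1) {e : A} {r : ℕ} {x y : Fin r → A} (hxy : ∑ i, x i * e * y i = 1)
    (he : star e = e) {d : ℕ} (hd : finrank F (symF (F := F) hs) ≤ d) (H : Submodule F A)
    {s₀ : A} (hs₀ : star s₀ = s₀) (hs₀H : s₀ ∉ H) :
    Nat.card Aˣ ≤ d * Nat.card {g : Aˣ // (g : A) * e * star (g : A) ∉ H} := by
  classical
  have := Fintype.ofFinite Aˣ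
  have hle : orb F e ≤ symF (F := F) hs := by
    refine Submodule.span_le.2 ?_
    rintro _ ⟨g, rfl⟩
    show star ((g : A) * e * star (g : A)) = (g : A) * e * star (g : A)
    rw [star_mul, star_star, star_mul, he, mul_assoc]
  obtain ⟨b, hbs, hbspan, hbli⟩ :=
    exists_linearIndependent F (Set.range fun g : Aˣ => (g : A) * e * star (g : A))
  have hbfin : b.Finite := Set.toFinite b
  have := hbfin.fintype
  have hcard : b.toFinset.card ≤ d := by
    have h1 : finrank F (Submodule.span F b) = b.toFinset.card := finrank_span_set_eq_card hbli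
    rw [← h1, hbspan]
    exact (Submodule.finrank_mono hle).trans hd
  have hg : ∀ z : b, ∃ g : Aˣ, (g : A) * e * star (g : A) = z := fun z => hbs z.2
  choose g hg using hg
  have hcover : ∀ h : Aˣ, ∃ z : b, (h : A) * (z : A) * star (h : A) ∉ H := by
    intro h
    by_contra hcon
    push Not at hcon
    let φ : A →ₗ[F] A := (LinearMap.mulRight F (star (h : A))).comp (LinearMap.mulLeft F (h : A))
    have h1 : Submodule.span F b ≤ H.comap φ := by
      refine Submodule.span_le.2 fun z hz => ?_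
      exact hcon ⟨z, hz⟩
    have h2 : ((h⁻¹ : Aˣ) : A) * s₀ * star ((h⁻¹ : Aˣ) : A) ∈ Submodule.span F b := by
      rw [hbspan]
      refine orb_top hF hs hτc hτ hxy he ?_
      rw [star_mul, star_star, star_mul, hs₀, mul_assoc]
    have h3 := h1 h2
    have h4 : φ (((h⁻¹ : Aˣ) : A) * s₀ * star ((h⁻¹ : Aˣ) : A)) = s₀ := by
      simp only [φ, LinearMap.comp_apply, LinearMap.mulLeft_apply, LinearMap.mulRight_apply]
      have h5 : star ((h⁻¹ : Aˣ) : A) * star (h : A) = 1 := by
        rw [← star_mul, Units.mul_inv, star_one]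
      rw [← mul_assoc, ← mul_assoc, Units.mul_inv, one_mul, mul_assoc, h5, mul_one]
    exact hs₀H (h4 ▸ h3)
  let Out : A → Finset Aˣ := fun z => Finset.univ.filter fun h => (h : A) * z * star (h : A) ∉ H
  have hsame : ∀ z : b, (Out z).card = (Out e).card := by
    intro z
    refine Finset.card_bij (fun h _ => h * g z) ?_ ?_ ?_
    · intro h hh
      rw [Finset.mem_filter] at hh ⊢
      refine ⟨Finset.mem_univ _, fun hm => hh.2 ?_⟩
      rw [← hg z]
      have heq : ((h * g z : Aˣ) : A) * e * star ((h * g z : Aˣ) : A) =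
          (h : A) * ((g z : A) * e * star (g z : A)) * star (h : A) := by
        rw [Units.val_mul, star_mul]; noncomm_ring
      rwa [heq] at hm
    · intro h _ h' _ hh
      exact mul_right_cancel hh
    · intro h hh
      rw [Finset.mem_filter] at hh
      refine ⟨h * (g z)⁻¹, ?_, by rw [inv_mul_cancel_right]⟩
      rw [Finset.mem_filter]
      refine ⟨Finset.mem_univ _, fun hm => hh.2 ?_⟩
      have heq : ((h * (g z)⁻¹ : Aˣ) : A) * (z : A) * star ((h * (g z)⁻¹ : Aˣ) : A) =
          (h : A) * e * star (h : A) := by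
        rw [← hg z]
        have h6 : ((h * (g z)⁻¹ : Aˣ) : A) * (g z : A) = h := by
          rw [← Units.val_mul, inv_mul_cancel_right]
        have h7 : ((h * (g z)⁻¹ : Aˣ) : A) * ((g z : A) * e * star (g z : A)) *
            star ((h * (g z)⁻¹ : Aˣ) : A) = (((h * (g z)⁻¹ : Aˣ) : A) * (g z : A)) * e *
            star (((h * (g z)⁻¹ : Aˣ) : A) * (g z : A)) := by
          rw [star_mul]; noncomm_ring
        rw [h7, h6]
      rwa [heq] at hm
  have hbig : (Finset.univ : Finset Aˣ).card ≤ ∑ z : b, (Out z).card := by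
    refine le_trans (Finset.card_le_card ?_) Finset.card_biUnion_le
    intro h _
    obtain ⟨z, hz⟩ := hcover h
    exact Finset.mem_biUnion.2 ⟨z, Finset.mem_univ _, Finset.mem_filter.2 ⟨Finset.mem_univ _, hz⟩⟩
  have hN : Nat.card {g : Aˣ // (g : A) * e * star (g : A) ∉ H} = (Out e).card := by
    rw [Nat.card_eq_fintype_card, Fintype.card_subtype]
  rw [hN, Nat.card_eq_fintype_card, ← Finset.card_univ]
  refine hbig.trans ?_
  rw [Finset.sum_congr rfl fun z _ => hsame z, Finset.sum_const, smul_eq_mul, Finset.card_univ,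
    ← Set.toFinset_card]
  exact Nat.mul_le_mul_right _ hcard

end count

section chars

variable {A F : Type*} [Ring A] [StarRing A] [Field F] [Algebra F A]

/-- The largest subspace of symmetric elements on which `ψ` is trivial. -/
def trv (hs : ∀ c : F, ∀ x : A, star (c • x) = c • star x) (ψ : A → ℂ)
    (hψ : ∀ x y, star x = x → star y = y → ψ (x + y) = ψ x * ψ y)
    (hψ1 : ∀ x, star x = x → ‖ψ x‖ = 1) : Submodule F A where
  carrier := {x | star x = x ∧ ∀ c : F, ψ (c • x) = 1}
  zero_mem' := by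
    refine ⟨star_zero A, fun c => ?_⟩
    rw [smul_zero]
    have h0 : ψ 0 * ψ 0 = ψ 0 := by rw [← hψ 0 0 (star_zero A) (star_zero A), add_zero]
    have h1 : ψ 0 ≠ 0 := fun h => by simpa [h] using hψ1 0 (star_zero A)
    exact mul_left_cancel₀ h1 (by rw [h0, mul_one])
  add_mem' := by
    rintro x y ⟨hx, hx'⟩ ⟨hy, hy'⟩
    refine ⟨by rw [star_add, hx, hy], fun c => ?_⟩
    rw [smul_add, hψ _ _ (by rw [hs, hx]) (by rw [hs, hy]), hx', hy', one_mul]
  smul_mem' := by
    rintro a x ⟨hx, hx'⟩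
    refine ⟨by rw [hs, hx], fun c => ?_⟩
    rw [smul_smul]
    exact hx' _

theorem char_sum [Fintype F] [DecidableEq F]
    (hs : ∀ c : F, ∀ x : A, star (c • x) = c • star x) (ψ : A → ℂ)
    (hψ : ∀ x y, star x = x → star y = y → ψ (x + y) = ψ x * ψ y)
    (hψ1 : ∀ x, star x = x → ‖ψ x‖ = 1) {e : A} (he : star e = e) :
    (e ∈ trv hs ψ hψ hψ1 → ∑ c ∈ (Finset.univ : Finset F).erase 0, ψ (c • e) =
      (Fintype.card F : ℂ) - 1) ∧
    (e ∉ trv hs ψ hψ hψ1 → ∑ c ∈ (Finset.univ : Finset F).erase 0, ψ (c • e) = -1) := by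
  have hz : ψ 0 = 1 := by
    have := (trv hs ψ hψ hψ1).zero_mem.2 1
    rwa [smul_zero] at this
  have hall : ∑ c : F, ψ (c • e) = ψ ((0 : F) • e) +
      ∑ c ∈ (Finset.univ : Finset F).erase 0, ψ (c • e) :=
    (Finset.add_sum_erase _ _ (Finset.mem_univ _)).symm
  rw [zero_smul, hz] at hall
  constructor
  · intro h
    have h1 : ∑ c : F, ψ (c • e) = Fintype.card F := by
      rw [Finset.sum_congr rfl fun c _ => h.2 c, Finset.sum_const, Finset.card_univ]
      simp
    rw [h1] at hall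
    rw [hall]; ring
  · intro h
    have h1 : ∃ c : F, ψ (c • e) ≠ 1 := by
      by_contra hcon
      push Not at hcon
      exact h ⟨he, hcon⟩
    obtain ⟨c₀, hc₀⟩ := h1
    have h2 : ∑ c : F, ψ (c • e) = ψ (c₀ • e) * ∑ c : F, ψ (c • e) := by
      rw [Finset.mul_sum]
      rw [← Equiv.sum_comp (Equiv.addLeft c₀) fun c => ψ (c • e)]
      refine Finset.sum_congr rfl fun c _ => ?_
      rw [Equiv.coe_addLeft, add_smul, hψ _ _ (by rw [hs, he]) (by rw [hs, he])]
    have h3 : ∑ c : F, ψ (c • e) = 0 := by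
      have h4 : (1 - ψ (c₀ • e)) * ∑ c : F, ψ (c • e) = 0 := by
        rw [sub_mul, one_mul, ← h2, sub_self]
      exact (mul_eq_zero.1 h4).resolve_left (sub_ne_zero.2 (Ne.symm hc₀))
    rw [h3] at hall
    exact (neg_eq_of_add_eq_zero_right hall.symm).symm

end chars

theorem local_bound {A F : Type*} [Ring A] [StarRing A] [Fintype A] [DecidableEq A] [Field F]
    [Finite F] (γ : F →+* A) (hγc : ∀ c x, γ c * x = x * γ c) (hγs : ∀ c, star (γ c) = γ c)
    {τ : A} (hτc : ∀ x, τ * x = x * τ) (hτ : τ + star τ = 1)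
    (hsimple : ∀ e : A, star e = e → e ≠ 0 → ∃ (r : ℕ) (x y : Fin r → A),
      ∑ i, x i * e * y i = 1)
    {d : ℕ} (hd : Nat.card {e : A // star e = e} ≤ Nat.card F ^ d)
    (hq : Nat.log 2 (Nat.card A) + 8 ≤ Nat.card F)
    (ψ : A → ℂ) (hψ : ∀ x y, star x = x → star y = y → ψ (x + y) = ψ x * ψ y)
    (hψ1 : ∀ x, star x = x → ‖ψ x‖ = 1) (hne : ∃ x, star x = x ∧ ψ x ≠ 1)
    (w : A → ℝ) (hw0 : ∀ e, 0 ≤ w e) (hw1 : ∀ g g' e : A, g * g' = 1 → w (g * e * star g) = w e)
    (hw2 : ∀ c e, c ≠ 0 → w (γ c * e) = w e) :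
    ‖∑ e : A with star e = e, (w e : ℂ) * ψ e‖ ≤ (∑ e : A with star e = e, w e) -
      (1 / (d : ℝ) - 1 / (Nat.card F - 1)) * ((∑ e : A with star e = e, w e) - w 0) := by
  classical
  let _ : Algebra F A := γ.toAlgebra' hγc
  have := Fintype.ofFinite F
  have := Fintype.ofFinite Aˣ
  have hsm : ∀ (c : F) (x : A), c • x = γ c * x := fun c x => rfl
  have hs : ∀ (c : F) (x : A), star (c • x) = c • star x := by
    intro c x
    rw [hsm, hsm, star_mul, hγs, ← hγc]
  have hcF : 1 < Nat.card F := by omega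
  have hA : finrank F A ≤ Nat.log 2 (Nat.card A) := by
    refine Nat.le_log_of_pow_le one_lt_two ?_
    rw [Module.natCard_eq_pow_finrank (K := F) (V := A)]
    exact Nat.pow_le_pow_left hcF _
  have hF : finrank F A + 4 ≤ Nat.card F := by omega
  have hd' : finrank F (symF (F := F) hs) ≤ d := by
    have h1 : Nat.card (symF (F := F) hs) ≤ Nat.card F ^ d := hd
    rw [Module.natCard_eq_pow_finrank (K := F)] at h1
    exact (Nat.pow_le_pow_iff_right hcF).1 h1
  obtain ⟨s₀, hs₀, hs₀1⟩ := hne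
  set H : Submodule F A := trv hs ψ hψ hψ1 with hH
  have hs₀H : s₀ ∉ H := fun h => hs₀1 (by simpa using h.2 1)
  set Sf : Finset A := Finset.univ.filter fun e : A => star e = e with hSf
  have hmem : ∀ e : A, e ∈ Sf ↔ star e = e := fun e => by simp [hSf]
  have h0mem : (0 : A) ∈ Sf := (hmem 0).2 (star_zero A)
  have hdpos : 0 < d := by
    by_contra hcon
    have hd0 : d = 0 := by omega
    have h1 : finrank F (symF (F := F) hs) = 0 := by omega
    have h2 := Submodule.finrank_eq_zero.1 h1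
    have h3 : s₀ ∈ symF (F := F) hs := hs₀
    rw [h2, Submodule.mem_bot] at h3
    exact hs₀H (h3 ▸ H.zero_mem)
  -- the weight outside `H`
  set Wo : ℝ := ∑ e ∈ Sf, if e ∈ H then 0 else w e with hWo
  set Wi : ℝ := ∑ e ∈ Sf, if e ∈ H then w e else 0 with hWi
  have hsplit : ∑ e ∈ Sf, w e = Wi + Wo := by
    rw [hWi, hWo, ← Finset.sum_add_distrib]
    refine Finset.sum_congr rfl fun e _ => ?_
    split_ifs <;> simp
  have hWo0 : 0 ≤ Wo := Finset.sum_nonneg fun e _ => by split_ifs <;> simp [hw0]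
  have hWi0 : 0 ≤ Wi := Finset.sum_nonneg fun e _ => by split_ifs <;> simp [hw0]
  -- step A
  have hq1 : (0 : ℝ) < (Nat.card F : ℝ) - 1 := by
    have : (1 : ℝ) < Nat.card F := by exact_mod_cast hcF
    linarith
  have hcomm : ∀ c : F, c ≠ 0 → ∑ e ∈ Sf, (w e : ℂ) * ψ (c • e) = ∑ e ∈ Sf, (w e : ℂ) * ψ e := by
    intro c hc
    refine Finset.sum_nbij' (fun e => c • e) (fun e => c⁻¹ • e) ?_ ?_ ?_ ?_ ?_
    · intro e he
      rw [hmem] at he ⊢
      rw [hs, he]
    · intro e he
      rw [hmem] at he ⊢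
      rw [hs, he]
    · intro e _
      rw [smul_smul, inv_mul_cancel₀ hc, one_smul]
    · intro e _
      rw [smul_smul, mul_inv_cancel₀ hc, one_smul]
    · intro e _
      rw [hsm c e, hw2 c e hc]
  have hA1 : ((Nat.card F : ℂ) - 1) * ∑ e ∈ Sf, (w e : ℂ) * ψ e =
      ((Nat.card F : ℂ) - 1) * (Wi : ℂ) - (Wo : ℂ) := by
    have h1 : ∑ c ∈ (Finset.univ : Finset F).erase 0, ∑ e ∈ Sf, (w e : ℂ) * ψ (c • e) =
        ((Nat.card F : ℂ) - 1) * ∑ e ∈ Sf, (w e : ℂ) * ψ e := by
      rw [Finset.sum_congr rfl fun c hc => hcomm c (Finset.ne_of_mem_erase hc), Finset.sum_const,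
        Finset.card_erase_of_mem (Finset.mem_univ _), Finset.card_univ, nsmul_eq_mul,
        Nat.cast_sub Fintype.card_pos, Nat.cast_one, Nat.card_eq_fintype_card]
    rw [← h1, Finset.sum_comm, hWi, hWo, Complex.ofReal_sum, Complex.ofReal_sum, Finset.mul_sum,
      ← Finset.sum_sub_distrib]
    refine Finset.sum_congr rfl fun e he => ?_
    rw [← Finset.mul_sum]
    have hcs := char_sum (F := F) hs ψ hψ hψ1 ((hmem e).1 he)
    by_cases heH : e ∈ H
    · rw [hcs.1 heH, if_pos heH, if_pos heH, Nat.card_eq_fintype_card]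
      simp only [Complex.ofReal_zero, sub_zero]
      ring
    · rw [hcs.2 heH, if_neg heH, if_neg heH]
      simp
  have hA2 : ((Nat.card F : ℝ) - 1) * ‖∑ e ∈ Sf, (w e : ℂ) * ψ e‖ ≤
      ((Nat.card F : ℝ) - 1) * Wi + Wo := by
    have h1 : ‖((Nat.card F : ℂ) - 1) * ∑ e ∈ Sf, (w e : ℂ) * ψ e‖ =
        ((Nat.card F : ℝ) - 1) * ‖∑ e ∈ Sf, (w e : ℂ) * ψ e‖ := by
      rw [norm_mul]
      congr 1
      have : ((Nat.card F : ℂ) - 1) = (((Nat.card F : ℝ) - 1 : ℝ) : ℂ) := by push_cast; ring
      rw [this, Complex.norm_real, Real.norm_of_nonneg hq1.le]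
    rw [← h1, hA1]
    refine (norm_sub_le _ _).trans ?_
    have h2 : ((Nat.card F : ℂ) - 1) * (Wi : ℂ) = ((((Nat.card F : ℝ) - 1) * Wi : ℝ) : ℂ) := by
      push_cast; ring
    rw [h2, Complex.norm_real, Complex.norm_real, Real.norm_of_nonneg (mul_nonneg hq1.le hWi0),
      Real.norm_of_nonneg hWo0]
  -- step B
  have hG : ∀ g : Aˣ, ∑ e ∈ Sf, (if (g : A) * e * star (g : A) ∈ H then 0 else w e) = Wo := by
    intro g
    rw [hWo]
    refine Finset.sum_nbij' (fun e => (g : A) * e * star (g : A))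
      (fun e => ((g⁻¹ : Aˣ) : A) * e * star ((g⁻¹ : Aˣ) : A)) ?_ ?_ ?_ ?_ ?_
    · intro e he
      rw [hmem] at he ⊢
      rw [star_mul, star_star, star_mul, he, mul_assoc]
    · intro e he
      rw [hmem] at he ⊢
      rw [star_mul, star_star, star_mul, he, mul_assoc]
    · intro e _
      have h5 : star (g : A) * star ((g⁻¹ : Aˣ) : A) = 1 := by
        rw [← star_mul, Units.inv_mul, star_one]
      show ((g⁻¹ : Aˣ) : A) * ((g : A) * e * star (g : A)) * star ((g⁻¹ : Aˣ) : A) = e
      rw [← mul_assoc, ← mul_assoc, Units.inv_mul, one_mul, mul_assoc, h5, mul_one]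
    · intro e _
      have h5 : star ((g⁻¹ : Aˣ) : A) * star (g : A) = 1 := by
        rw [← star_mul, Units.mul_inv, star_one]
      show (g : A) * (((g⁻¹ : Aˣ) : A) * e * star ((g⁻¹ : Aˣ) : A)) * star (g : A) = e
      rw [← mul_assoc, ← mul_assoc, Units.mul_inv, one_mul, mul_assoc, h5, mul_one]
    · intro e _
      rw [hw1 (g : A) ((g⁻¹ : Aˣ) : A) e (Units.mul_inv g)]
  have hB : (Nat.card Aˣ : ℝ) * ((∑ e ∈ Sf, w e) - w 0) ≤ d * ((Nat.card Aˣ : ℝ) * Wo) := by
    have h1 : (Nat.card Aˣ : ℝ) * Wo = ∑ e ∈ Sf,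
        (Nat.card {g : Aˣ // (g : A) * e * star (g : A) ∉ H} : ℝ) * w e := by
      have h2 : ∑ g : Aˣ, ∑ e ∈ Sf, (if (g : A) * e * star (g : A) ∈ H then 0 else w e) =
          (Nat.card Aˣ : ℝ) * Wo := by
        rw [Finset.sum_congr rfl fun g _ => hG g, Finset.sum_const, Finset.card_univ,
          nsmul_eq_mul, Nat.card_eq_fintype_card]
      rw [← h2, Finset.sum_comm]
      refine Finset.sum_congr rfl fun e _ => ?_
      rw [Nat.card_eq_fintype_card, Fintype.card_subtype, Finset.sum_ite, Finset.sum_const_zero,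
        zero_add, Finset.sum_const, nsmul_eq_mul]
    have h3 : (∑ e ∈ Sf, w e) - w 0 = ∑ e ∈ Sf.erase 0, w e := by
      rw [← Finset.add_sum_erase _ _ h0mem]; ring
    rw [h1, h3, Finset.mul_sum, Finset.mul_sum]
    refine (Finset.sum_le_sum (g := fun e => (d : ℝ) *
      ((Nat.card {g : Aˣ // (g : A) * e * star (g : A) ∉ H} : ℝ) * w e)) ?_).trans ?_
    · intro e he
      obtain ⟨he0, heS⟩ := Finset.mem_erase.1 he
      rw [hmem] at heS
      obtain ⟨r, x, y, hxy⟩ := hsimple e heS he0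
      have h4 := count_out hF hs hτc hτ hxy heS hd' H hs₀ hs₀H
      have h5 : (Nat.card Aˣ : ℝ) ≤
          d * (Nat.card {g : Aˣ // (g : A) * e * star (g : A) ∉ H} : ℝ) := by exact_mod_cast h4
      calc _ ≤ (d * (Nat.card {g : Aˣ // (g : A) * e * star (g : A) ∉ H} : ℝ)) * w e :=
            mul_le_mul_of_nonneg_right h5 (hw0 e)
        _ = _ := by ring
    · exact Finset.sum_le_sum_of_subset_of_nonneg (Finset.erase_subset _ _) fun e _ _ =>
        mul_nonneg (Nat.cast_nonneg _) (mul_nonneg (Nat.cast_nonneg _) (hw0 e))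
  have hGpos : (0 : ℝ) < Nat.card Aˣ := by
    have : 0 < Nat.card Aˣ := Nat.card_pos
    exact_mod_cast this
  have hB' : (∑ e ∈ Sf, w e) - w 0 ≤ d * Wo := by
    have : (Nat.card Aˣ : ℝ) * ((∑ e ∈ Sf, w e) - w 0) ≤ (Nat.card Aˣ : ℝ) * (d * Wo) := by
      linarith
    exact le_of_mul_le_mul_left this hGpos
  have hW0 : 0 ≤ (∑ e ∈ Sf, w e) - w 0 := by
    rw [← Finset.add_sum_erase _ _ h0mem]
    have := Finset.sum_nonneg fun e (_ : e ∈ Sf.erase 0) => hw0 e
    linarith
  -- end
  set Z : ℝ := ∑ e ∈ Sf, w e with hZ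
  set u : ℝ := 1 / ((Nat.card F : ℝ) - 1) with hu
  have hu1 : u * ((Nat.card F : ℝ) - 1) = 1 := one_div_mul_cancel hq1.ne'
  have hu0 : 0 ≤ u := by positivity
  have hu2 : u ≤ 1 := by
    rw [hu, div_le_one hq1]
    have : (2 : ℝ) ≤ Nat.card F := by exact_mod_cast hcF
    linarith
  have hdR : (1 : ℝ) ≤ d := by exact_mod_cast hdpos
  have hX : ‖∑ e ∈ Sf, (w e : ℂ) * ψ e‖ ≤ Wi + u * Wo := by
    have h1 := mul_le_mul_of_nonneg_left hA2 hu0
    have h2 : u * (((Nat.card F : ℝ) - 1) * ‖∑ e ∈ Sf, (w e : ℂ) * ψ e‖) =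
        ‖∑ e ∈ Sf, (w e : ℂ) * ψ e‖ := by rw [← mul_assoc, hu1, one_mul]
    have h3 : u * (((Nat.card F : ℝ) - 1) * Wi + Wo) = Wi + u * Wo := by
      rw [mul_add, ← mul_assoc, hu1, one_mul]
    rwa [h2, h3] at h1
  have hd1 : (Z - w 0) / d ≤ Wo := by
    rw [div_le_iff₀ (by linarith)]
    linarith
  refine hX.trans ?_
  have h4 : (1 / (d : ℝ) - u) * (Z - w 0) ≤ (1 - u) * Wo := by
    have h5 : (1 - u) * ((Z - w 0) / d) ≤ (1 - u) * Wo :=
      mul_le_mul_of_nonneg_left hd1 (by linarith)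
    have h6 : (1 / (d : ℝ) - u) * (Z - w 0) ≤ (1 - u) * ((Z - w 0) / d) := by
      have h7 : (1 - u) * ((Z - w 0) / d) - (1 / (d : ℝ) - u) * (Z - w 0) =
          u * (1 - 1 / d) * (Z - w 0) := by ring
      have h8 : 0 ≤ u * (1 - 1 / d) * (Z - w 0) := by
        have : 1 / (d : ℝ) ≤ 1 := by rw [div_le_one (by linarith)]; exact hdR
        exact mul_nonneg (mul_nonneg hu0 (by linarith)) hW0
      linarith
    linarith
  linarith [hsplit]

end Vale.Agent.P011.H704
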