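import Mathlib

/-!
helper704, P011: mass of one coset from the Fourier bounds (P7 of H40/Spec).

If a nonnegative mass on a group `T` mapping to a finite group `Q` has total mass at most
`C / (x - 1)` and every nontrivial character of `Q` has Fourier sum `o (1 / (x - 1))`, then every
fibre has mass at most `(C / card Q + ε) / (x - 1)` for `x` close to `1`.
-/

namespace Vale.Agent.P011.H704

open Filter Topology

theorem coset_of_fourier {T Q : Type*} [AddCommGroup T] [AddCommGroup Q] [Finite Q]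
    (ω : T →+ Q) (f : ℝ → T → ℝ) (hf0 : ∀ x t, 0 ≤ f x t) {C : ℝ} (_hC0 : 0 ≤ C)
    (hmass : ∀ᶠ x in 𝓝[>] (1 : ℝ), Summable (f x) ∧ ∑' t, f x t ≤ C / (x - 1))
    (hψ : ∀ ψ : AddChar Q ℂ, ψ ≠ 1 →
      Tendsto (fun x : ℝ => (x - 1) * ‖∑' t, (f x t : ℂ) * ψ (ω t)‖) (𝓝[>] 1) (𝓝 0))
    {ε : ℝ} (hε : 0 < ε) :
    ∀ᶠ x in 𝓝[>] (1 : ℝ), ∀ q : Q,
      (x - 1) * ∑' t : {t : T // ω t = q}, f x t ≤ C / Nat.card Q + ε := by
  classical
  have := Fintype.ofFinite Q
  -- the sum over nontrivial characters tends to zero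
  have hlim : Tendsto (fun x : ℝ => ∑ ψ ∈ Finset.univ.filter (fun ψ : AddChar Q ℂ => ψ ≠ 1),
      (x - 1) * ‖∑' t, (f x t : ℂ) * ψ (ω t)‖) (𝓝[>] 1) (𝓝 0) := by
    have : (0 : ℝ) = ∑ ψ ∈ Finset.univ.filter (fun ψ : AddChar Q ℂ => ψ ≠ 1), (0 : ℝ) := by
      simp
    rw [this]
    exact tendsto_finsetSum _ fun ψ hψ' => hψ ψ (by simpa using hψ')
  have hcard : (0 : ℝ) < Nat.card Q := by exact_mod_cast Nat.card_pos
  have hev := hlim.eventually (gt_mem_nhds (show (0 : ℝ) < Nat.card Q * ε by positivity))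
  have hpos : ∀ᶠ x in 𝓝[>] (1 : ℝ), 1 < x := eventually_mem_nhdsWithin
  filter_upwards [hev, hmass, hpos] with x hx hm h1x q
  obtain ⟨hs, hmx⟩ := hm
  have hx0 : 0 < x - 1 := by linarith
  -- summability of the twisted sums
  have hsum : ∀ ψ : AddChar Q ℂ, Summable fun t => (f x t : ℂ) * ψ (ω t) := by
    intro ψ
    apply Summable.of_norm
    refine hs.congr fun t => ?_
    rw [norm_mul, AddChar.norm_apply, mul_one, Complex.norm_real, Real.norm_of_nonneg (hf0 x t)]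
  -- orthogonality
  have horth : ((Nat.card Q : ℝ) : ℂ) * ((∑' t : {t : T // ω t = q}, f x t : ℝ) : ℂ) =
      ∑ ψ : AddChar Q ℂ, ψ (-q) * ∑' t, (f x t : ℂ) * ψ (ω t) := by
    have e1 : (∑' t : {t : T // ω t = q}, f x t) =
        ∑' t, Set.indicator {t : T | ω t = q} (f x) t :=
      tsum_subtype {t : T | ω t = q} (f x)
    rw [e1, Complex.ofReal_tsum, ← tsum_mul_left]
    have e2 : ∑ ψ : AddChar Q ℂ, ψ (-q) * ∑' t, (f x t : ℂ) * ψ (ω t) =
        ∑ ψ : AddChar Q ℂ, ∑' t, ψ (-q) * ((f x t : ℂ) * ψ (ω t)) :=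
      Finset.sum_congr rfl fun ψ _ => (tsum_mul_left).symm
    rw [e2, ← Summable.tsum_finsetSum fun ψ _ => (hsum ψ).mul_left _]
    refine tsum_congr fun t => ?_
    have e3 : ∑ ψ : AddChar Q ℂ, ψ (-q) * ((f x t : ℂ) * ψ (ω t)) =
        (f x t : ℂ) * ∑ ψ : AddChar Q ℂ, ψ (ω t - q) := by
      rw [Finset.mul_sum]
      refine Finset.sum_congr rfl fun ψ _ => ?_
      rw [sub_eq_add_neg, AddChar.map_add_eq_mul]
      ring
    rw [e3, AddChar.sum_apply_eq_ite]
    by_cases h : ω t = q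
    · rw [Set.indicator_of_mem (show t ∈ {t : T | ω t = q} from h), if_pos (sub_eq_zero.mpr h),
        Nat.card_eq_fintype_card]
      push_cast
      ring
    · rw [Set.indicator_of_notMem (show t ∉ {t : T | ω t = q} from h),
        if_neg (sub_ne_zero.mpr h)]
      simp
  have hS0 : 0 ≤ ∑' t : {t : T // ω t = q}, f x t := tsum_nonneg fun t => hf0 x t
  have hnorm : (Nat.card Q : ℝ) * ∑' t : {t : T // ω t = q}, f x t ≤
      ∑ ψ : AddChar Q ℂ, ‖∑' t, (f x t : ℂ) * ψ (ω t)‖ := by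
    have h := congrArg norm horth
    rw [norm_mul, Complex.norm_real, Complex.norm_real, Real.norm_of_nonneg hcard.le,
      Real.norm_of_nonneg hS0] at h
    rw [h]
    refine (norm_sum_le _ _).trans (Finset.sum_le_sum fun ψ _ => ?_)
    rw [norm_mul, AddChar.norm_apply, one_mul]
  -- split off the trivial character
  have hsplit : ∑ ψ : AddChar Q ℂ, ‖∑' t, (f x t : ℂ) * ψ (ω t)‖ =
      ‖∑' t, (f x t : ℂ) * (1 : AddChar Q ℂ) (ω t)‖ +
      ∑ ψ ∈ Finset.univ.filter (fun ψ : AddChar Q ℂ => ψ ≠ 1),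
        ‖∑' t, (f x t : ℂ) * ψ (ω t)‖ := by
    rw [Finset.filter_ne', ← Finset.add_sum_erase _ _ (Finset.mem_univ (1 : AddChar Q ℂ))]
  have htriv : ‖∑' t, (f x t : ℂ) * (1 : AddChar Q ℂ) (ω t)‖ ≤ C / (x - 1) := by
    have : ∑' t, (f x t : ℂ) * (1 : AddChar Q ℂ) (ω t) = ((∑' t, f x t : ℝ) : ℂ) := by
      rw [Complex.ofReal_tsum]
      exact tsum_congr fun t => by simp
    rw [this, Complex.norm_real, Real.norm_of_nonneg (tsum_nonneg (hf0 x))]
    exact hmx
  rw [hsplit] at hnorm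
  rw [← Finset.mul_sum] at hx
  have h3 : (x - 1) * (Nat.card Q * ∑' t : {t : T // ω t = q}, f x t) ≤
      C + Nat.card Q * ε := by
    have h4 : (x - 1) * ‖∑' t, (f x t : ℂ) * (1 : AddChar Q ℂ) (ω t)‖ ≤ C := by
      rw [le_div_iff₀ hx0] at htriv
      linarith
    have h5 := mul_le_mul_of_nonneg_left hnorm hx0.le
    rw [mul_add] at h5
    linarith
  rw [← sub_le_iff_le_add, le_div_iff₀ hcard]
  linarith

end Vale.Agent.P011.H704
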